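import Vale.Agent.Lib.P183.Core

/-!
An explicit unary algebra on 24 points (left translations of the symmetric group on four letters,
with six further two-valued maps), with its certificate data.
-/

namespace Vale.Agent.Lib.P183

def s4rep : Rep := ⟨24, [[9,8,11,10,6,7,15,14,17,16,12,13,21,20,23,22,18,19,0,1,2,3,4,5], [6,7,8,9,10,11,0,1,2,3,4,5,14,15,12,13,17,16,20,21,18,19,23,22], [6,0,6,0,6,0,6,0,6,6,6,0,0,6,0,0,6,6,6,0,0,6,0,0], [6,6,0,0,6,6,0,0,6,6,0,6,6,0,6,0,6,0,6,0,0,0,6,0], [6,6,6,6,0,0,0,0,0,6,6,6,6,6,0,6,6,0,6,6,6,6,6,0], [6,6,6,6,6,6,6,6,6,0,6,0,0,0,6,0,6,6,0,0,6,0,6,6], [2,2,0,0,2,2,2,2,2,2,0,0,0,0,2,2,2,2,2,2,0,0,2,2], [2,2,2,2,0,0,2,2,0,0,2,2,2,2,0,0,2,2,0,0,2,2,2,2]], [[0,1,2,3,4,5,6,7,8,9,10,11,12,13,14,15,16,17,18,19,20,21,22,23], [0,1,2,3,4,5,6,7,4,9,2,11,11,13,5,15,0,6,9,15,3,13,1,7],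 [0,1,2,3,4,5,0,1,8,9,10,11,2,3,8,9,16,17,4,5,10,11,16,17], [0,1,0,3,1,3,0,1,0,9,1,9,0,3,0,9,3,9,1,3,1,9,3,9], [0,0,2,2,4,4,0,0,8,8,10,10,2,2,8,8,16,16,4,4,10,10,16,16], [0,0,2,2,4,4,0,0,4,4,2,2,2,2,4,4,0,0,4,4,2,2,0,0], [0,0,0,0,0,0,0,0,0,0,0,0,0,0,0,0,0,0,0,0,0,0,0,0]]⟩
def s4par : List Nat := [0,0,1,1,0,1,1,1,0,0,1,0,0,0,0,1,0,1,0,1,1,0,0,1]
def s4root : List Nat := [0,4,3,6,6,6,2,4,3,6,6,6,3,6,3,6,1,5,6,6,6,6,5,5]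

theorem s4rep_check : checkRepT s4rep s4par s4root = true := by decide +kernel

theorem s4rep_good : Good s4rep := good_of_checkRepT s4rep_check

end Vale.Agent.Lib.P183
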