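import Vale.Agent.Lib.P183.Table

namespace Vale.Agent.Lib.P183.DataSmall

/-- an explicit algebra for the class 1:0 -/
def a1_0 : Rep := ⟨1, [], [[0]]⟩
theorem h1_0 : smallOK 1 0 a1_0 = true := by decide +kernel

/-- an explicit algebra for the class 2:0 -/
def a2_0 : Rep := ⟨2, [[0,0], [0,0], [0,0]], [[0,1], [0,0]]⟩
theorem h2_0 : smallOK 2 0 a2_0 = true := by decide +kernel

/-- an explicit algebra for the class 3:0 -/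
def a3_0 : Rep := ⟨3, [[2,2,2], [2,2,2], [2,1,1]], [[0,1,2], [0,1,1], [0,0,0]]⟩
theorem h3_0 : smallOK 3 0 a3_0 = true := by decide +kernel

/-- an explicit algebra for the class 4:0 -/
def a4_0 : Rep := ⟨3, [[2,2,2], [2,2,2], [2,1,2]], [[0,1,2], [0,1,1], [0,1,0], [0,0,0]]⟩
theorem h4_0 : smallOK 4 0 a4_0 = true := by decide +kernel

/-- an explicit algebra for the class 4:1 -/
def a4_1 : Rep := ⟨4, [[3,2,1,0], [0,2,2,0], [0,3,0,0]], [[0,1,2,3], [0,1,2,0], [0,1,1,0], [0,0,0,0]]⟩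
theorem h4_1 : smallOK 4 1 a4_1 = true := by decide +kernel

/-- an explicit algebra for the class 5:0 -/
def a5_0 : Rep := ⟨3, [[2,2,2], [2,2,2], [2,2,2]], [[0,1,2], [0,1,1], [0,1,0], [0,0,2], [0,0,0]]⟩
theorem h5_0 : smallOK 5 0 a5_0 = true := by decide +kernel

/-- an explicit algebra for the class 5:1 -/
def a5_1 : Rep := ⟨4, [[2,1,2,1], [1,3,3,1], [3,0,3,0]], [[0,1,2,3], [0,1,1,0], [0,1,2,1], [0,1,0,1], [0,0,0,0]]⟩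
theorem h5_1 : smallOK 5 4 a5_1 = true := by decide +kernel

/-- an explicit algebra for the class 5:2 -/
def a5_2 : Rep := ⟨4, [[1,0,3,0], [0,0,1,0], [0,0,1,0]], [[0,1,2,3], [0,0,2,3], [0,1,2,1], [0,0,2,0], [0,0,0,0]]⟩
theorem h5_2 : smallOK 5 6 a5_2 = true := by decide +kernel

/-- an explicit algebra for the class 5:3 -/
def a5_3 : Rep := ⟨4, [[3,3,1,0], [3,3,0,1], [3,3,1,1]], [[0,1,2,3], [0,0,2,3], [0,0,2,2], [0,0,2,0], [0,0,0,0]]⟩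
theorem h5_3 : smallOK 5 3 a5_3 = true := by decide +kernel

/-- an explicit algebra for the class 5:4 -/
def a5_4 : Rep := ⟨5, [[0,0,2,4,2], [0,1,1,1,1], [3,2,1,1,1]], [[0,1,2,3,4], [0,1,2,3,2], [0,1,2,2,2], [0,0,2,2,2], [0,0,0,0,0]]⟩
theorem h5_4 : smallOK 5 7 a5_4 = true := by decide +kernel

/-- an explicit algebra for the class 6:0 -/
def a6_0 : Rep := ⟨6, [[1,0,3,2,5,4], [1,1,1,1,1,1], [3,4,5,0,1,2]], [[0,1,2,3,4,5], [0,0,2,3,3,2], [0,1,0,1,0,1], [0,1,1,0,4,4], [0,1,2,2,1,0], [0,0,0,0,0,0]]⟩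
theorem h6_0 : smallOK 6 0 a6_0 = true := by decide +kernel

/-- an explicit algebra for the class 6:1 -/
def a6_1 : Rep := ⟨7, [[5,4,6,6,4,5,6], [6,2,3,3,2,6,3], [3,3,1,3,0,0,0]], [[0,1,2,3,4,5,6], [0,0,2,3,4,4,2], [0,1,1,1,4,5,4], [0,1,2,0,4,0,0], [0,1,2,0,1,0,0], [0,0,0,0,0,0,0]]⟩
theorem h6_1 : smallOK 6 32 a6_1 = true := by decide +kernel

/-- an explicit algebra for the class 6:2 -/
def a6_2 : Rep := ⟨4, [[0,1,0,1], [2,3,2,3], [2,2,2,2]], [[0,1,2,3], [0,0,2,2], [0,1,2,1], [0,1,0,3], [0,1,0,1], [0,0,0,0]]⟩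
theorem h6_2 : smallOK 6 48 a6_2 = true := by decide +kernel

/-- an explicit algebra for the class 6:4 -/
def a6_4 : Rep := ⟨6, [[4,5,4,5,5,4], [0,5,5,0,5,5], [2,1,2,1,3,0]], [[0,1,2,3,4,5], [0,1,1,0,4,4], [0,1,0,3,4,0], [0,1,0,1,4,0], [0,1,0,1,1,0], [0,0,0,0,0,0]]⟩
theorem h6_4 : smallOK 6 52 a6_4 = true := by decide +kernel

/-- an explicit algebra for the class 6:5 -/
def a6_5 : Rep := ⟨4, [[0,0,3,0], [0,0,1,0], [0,0,2,0]], [[0,1,2,3], [0,1,2,0], [0,0,2,3], [0,1,2,1], [0,0,2,0], [0,0,0,0]]⟩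
theorem h6_5 : smallOK 6 56 a6_5 = true := by decide +kernel

/-- an explicit algebra for the class 6:6 -/
def a6_6 : Rep := ⟨6, [[1,3,5,1,2,2], [3,3,3,0,3,0], [5,4,4,2,5,2]], [[0,1,2,3,4,5], [0,1,1,3,4,3], [0,1,2,0,2,2], [0,0,2,0,2,2], [0,1,1,3,0,3], [0,0,0,0,0,0]]⟩
theorem h6_6 : smallOK 6 12 a6_6 = true := by decide +kernel

/-- an explicit algebra for the class 6:7 -/
def a6_7 : Rep := ⟨4, [[3,2,1,1], [1,0,0,0], [1,0,0,0]], [[0,1,2,3], [0,1,1,3], [0,1,2,2], [0,0,2,2], [0,1,1,1], [0,0,0,0]]⟩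
theorem h6_7 : smallOK 6 28 a6_7 = true := by decide +kernel

/-- an explicit algebra for the class 6:8 -/
def a6_8 : Rep := ⟨5, [[2,4,0,0,1], [0,2,2,4,0], [0,0,0,4,0]], [[0,1,2,3,4], [0,1,1,3,0], [0,1,0,3,4], [0,1,0,3,1], [0,0,0,3,0], [0,0,0,0,0]]⟩
theorem h6_8 : smallOK 6 60 a6_8 = true := by decide +kernel

/-- an explicit algebra for the class 6:9 -/
def a6_9 : Rep := ⟨5, [[4,4,1,1,0], [0,0,2,0,0], [2,2,0,0,2]], [[0,1,2,3,4], [0,0,2,3,4], [0,1,2,3,0], [0,0,2,3,0], [0,0,0,3,0], [0,0,0,0,0]]⟩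
theorem h6_9 : smallOK 6 62 a6_9 = true := by decide +kernel

/-- an explicit algebra for the class 6:10 -/
def a6_10 : Rep := ⟨4, [[1,3,1,1], [3,3,1,1], [3,3,1,3]], [[0,1,2,3], [0,1,2,1], [0,1,0,1], [0,1,1,1], [0,0,2,0], [0,0,0,0]]⟩
theorem h6_10 : smallOK 6 11 a6_10 = true := by decide +kernel

/-- an explicit algebra for the class 6:11 -/
def a6_11 : Rep := ⟨5, [[1,1,2,2,1], [1,0,4,1,1], [1,4,3,2,1]], [[0,1,2,3,4], [0,1,2,3,0], [0,1,1,0,0], [0,0,2,3,0], [0,0,2,2,0], [0,0,0,0,0]]⟩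
theorem h6_11 : smallOK 6 43 a6_11 = true := by decide +kernel

/-- an explicit algebra for the class 6:12 -/
def a6_12 : Rep := ⟨5, [[0,4,4,3,3], [4,2,0,0,0], [4,2,0,0,0]], [[0,1,2,3,4], [0,1,2,3,3], [0,1,2,0,0], [0,1,2,2,2], [0,1,0,0,0], [0,0,0,0,0]]⟩
theorem h6_12 : smallOK 6 59 a6_12 = true := by decide +kernel

/-- an explicit algebra for the class 6:13 -/
def a6_13 : Rep := ⟨5, [[1,1,4,0,0], [3,3,3,2,3], [3,3,3,2,3]], [[0,1,2,3,4], [0,0,2,3,4], [0,0,2,3,0], [0,0,0,3,0], [0,0,2,2,0], [0,0,0,0,0]]⟩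
theorem h6_13 : smallOK 6 31 a6_13 = true := by decide +kernel

/-- an explicit algebra for the class 6:14 -/
def a6_14 : Rep := ⟨6, [[3,1,4,0,0,2], [0,0,0,0,0,4], [1,0,0,1,0,4]], [[0,1,2,3,4,5], [0,1,2,0,4,5], [0,0,2,0,4,5], [0,0,2,0,0,5], [0,0,0,0,0,5], [0,0,0,0,0,0]]⟩
theorem h6_14 : smallOK 6 63 a6_14 = true := by decide +kernel

/-- an explicit algebra for the class 7:2 -/
def a7_2 : Rep := ⟨4, [[3,2,1,0], [0,0,0,0], [0,0,0,0]], [[0,1,2,3], [0,0,2,2], [0,1,0,1], [0,1,2,0], [0,1,1,3], [0,1,1,0], [0,0,0,0]]⟩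
theorem h7_2 : smallOK 7 768 a7_2 = true := by decide +kernel

/-- an explicit algebra for the class 7:8 -/
def a7_8 : Rep := ⟨9, [[2,3,2,3,8,7,8,7,8], [5,5,4,4,1,1,0,4,4], [4,6,4,6,0,2,0,2,0], [0,0,0,0,4,4,4,4,4], [4,4,4,4,0,0,0,4,4], [4,4,4,4,4,4,4,0,0]], [[0,1,2,3,4,5,6,7,8], [0,1,2,3,0,1,2,3,2], [0,0,2,2,4,5,4,7,8], [0,1,0,3,4,4,6,7,7], [0,1,0,1,4,4,6,7,7], [0,0,0,0,4,4,4,7,7], [0,0,0,0,0,0,0,0,0]]⟩
theorem h7_8 : smallOK 7 928 a7_8 = true := by decide +kernel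

/-- an explicit algebra for the class 7:9 -/
def a7_9 : Rep := ⟨7, [[5,4,6,5,0,0,2], [1,3,6,6,6,1,6], [0,0,2,6,2,5,6]], [[0,1,2,3,4,5,6], [0,0,2,0,2,2,0], [0,1,2,3,4,0,6], [0,1,2,3,4,5,2], [0,1,2,3,4,0,2], [0,1,2,3,3,0,2], [0,0,0,0,0,0,0]]⟩
theorem h7_9 : smallOK 7 944 a7_9 = true := by decide +kernel

/-- an explicit algebra for the class 7:12 -/
def a7_12 : Rep := ⟨6, [[4,4,5,5,0,2], [5,2,5,2,3,3], [3,3,1,1,3,1]], [[0,1,2,3,4,5], [0,1,0,1,4,4], [0,1,2,2,4,2], [0,1,2,2,0,2], [0,0,2,2,4,2], [0,0,2,2,0,2], [0,0,0,0,0,0]]⟩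
theorem h7_12 : smallOK 7 916 a7_12 = true := by decide +kernel

/-- an explicit algebra for the class 7:14 -/
def a7_14 : Rep := ⟨8, [[6,6,4,5,5,6,6,4], [1,3,3,1,5,4,5,4], [2,2,1,3,4,7,7,5], [6,6,6,6,0,0,0,0]], [[0,1,2,3,4,5,6,7], [0,1,2,3,3,1,0,2], [0,1,2,3,4,4,4,4], [0,1,1,3,4,4,4,4], [0,1,1,1,4,4,4,4], [0,0,0,0,4,4,4,4], [0,0,0,0,0,0,0,0]]⟩
theorem h7_14 : smallOK 7 948 a7_14 = true := by decide +kernel

/-- an explicit algebra for the class 7:15 -/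
def a7_15 : Rep := ⟨7, [[4,1,2,3,4,5,6], [4,2,1,6,5,4,3], [4,3,5,4,1,6,2]], [[0,1,2,3,4,5,6], [0,1,2,2,4,4,1], [0,1,2,3,2,1,3], [0,1,2,1,1,2,2], [0,1,1,3,4,3,4], [0,1,1,1,1,1,1], [0,0,0,0,0,0,0]]⟩
theorem h7_15 : smallOK 7 960 a7_15 = true := by decide +kernel

/-- an explicit algebra for the class 7:16 -/
def a7_16 : Rep := ⟨8, [[1,0,6,7,0,1,7,6], [4,5,3,2,5,4,2,3], [3,3,0,0,3,3,0,0], [3,3,3,3,0,0,0,0], [4,4,2,2,4,4,2,2], [4,4,4,4,2,2,2,2], [5,5,0,0,5,5,0,0], [5,5,5,5,0,0,0,0], [6,6,0,0,6,6,0,0], [6,6,6,6,0,0,0,0], [7,7,1,1,7,7,1,1], [7,7,7,7,1,1,1,1]], [[0,1,2,3,4,5,6,7], [0,0,2,3,4,4,6,7], [0,1,2,2,4,5,6,6], [0,1,2,0,2,0,0,1], [0,1,1,0,1,0,0,1], [0,0,2,2,4,4,6,6], [0,0,0,0,0,0,0,0]]⟩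
theorem h7_16 : smallOK 7 224 a7_16 = true := by decide +kernel

/-- an explicit algebra for the class 7:17 -/
def a7_17 : Rep := ⟨4, [[3,2,2,2], [1,0,0,0], [1,0,0,0]], [[0,1,2,3], [0,1,2,1], [0,1,1,3], [0,1,2,2], [0,0,2,2], [0,1,1,1], [0,0,0,0]]⟩
theorem h7_17 : smallOK 7 480 a7_17 = true := by decide +kernel

/-- an explicit algebra for the class 7:19 -/
def a7_19 : Rep := ⟨6, [[1,1,2,2,2,4], [3,3,0,0,0,1], [5,2,2,5,5,2]], [[0,1,2,3,4,5], [0,0,2,3,2,2], [0,1,1,0,4,5], [0,1,2,3,3,5], [0,1,1,0,0,5], [0,0,2,2,2,2], [0,0,0,0,0,0]]⟩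
theorem h7_19 : smallOK 7 368 a7_19 = true := by decide +kernel

/-- an explicit algebra for the class 7:20 -/
def a7_20 : Rep := ⟨5, [[4,3,4,2,2], [0,0,0,0,0], [3,0,3,0,0]], [[0,1,2,3,4], [0,1,2,0,2], [0,1,0,3,4], [0,1,2,3,3], [0,1,0,3,3], [0,1,0,0,0], [0,0,0,0,0]]⟩
theorem h7_20 : smallOK 7 1008 a7_20 = true := by decide +kernel

/-- an explicit algebra for the class 7:22 -/
def a7_22 : Rep := ⟨8, [[5,6,6,6,5,4,3,3], [3,4,3,6,6,2,2,0], [3,3,3,2,2,3,3,3], [3,3,3,3,3,2,2,2], [4,4,4,0,0,4,4,4], [4,4,4,4,4,0,0,0], [6,6,6,2,2,6,6,6], [6,6,6,6,6,2,2,2], [7,7,7,1,1,7,7,7], [7,7,7,7,7,1,1,1], [2,1,2,2,2,2,2,1], [2,2,1,1,2,2,1,2], [4,3,4,4,4,4,4,3], [4,4,3,3,4,4,3,4], [6,5,6,6,6,6,6,5], [6,6,5,5,6,6,5,6]], [[0,1,2,3,4,5,6,7], [0,1,2,2,0,5,2,1], [0,1,1,3,3,5,5,7], [0,0,0,3,3,5,5,7], [0,0,0,3,3,5,5,5], [0,1,2,2,0,0,2,1], [0,0,0,0,0,0,0,0]]⟩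
theorem h7_22 : smallOK 7 116 a7_22 = true := by decide +kernel

/-- an explicit algebra for the class 7:23 -/
def a7_23 : Rep := ⟨4, [[2,1,2,1], [2,1,1,1], [2,1,1,1]], [[0,1,2,3], [0,1,2,1], [0,1,1,3], [0,1,1,0], [0,0,0,3], [0,1,1,1], [0,0,0,0]]⟩
theorem h7_23 : smallOK 7 212 a7_23 = true := by decide +kernel

/-- an explicit algebra for the class 7:26 -/
def a7_26 : Rep := ⟨5, [[3,3,2,3,2], [1,1,0,1,0], [4,4,3,2,1]], [[0,1,2,3,4], [0,1,2,1,2], [0,0,2,3,4], [0,0,2,2,4], [0,0,2,2,0], [0,0,2,0,2], [0,0,0,0,0]]⟩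
theorem h7_26 : smallOK 7 244 a7_26 = true := by decide +kernel

/-- an explicit algebra for the class 7:27 -/
def a7_27 : Rep := ⟨5, [[0,0,0,4,4], [0,1,0,1,0], [3,4,1,4,3]], [[0,1,2,3,4], [0,0,2,3,3], [0,1,2,3,0], [0,1,2,1,0], [0,1,0,1,0], [0,0,2,0,0], [0,0,0,0,0]]⟩
theorem h7_27 : smallOK 7 500 a7_27 = true := by decide +kernel

/-- an explicit algebra for the class 7:28 -/
def a7_28 : Rep := ⟨7, [[4,0,2,4,0,4,0], [0,5,1,5,0,0,0], [6,3,2,1,5,1,3]], [[0,1,2,3,4,5,6], [0,1,2,1,0,5,5], [0,1,2,3,4,0,1], [0,1,2,0,4,0,1], [0,1,2,0,1,0,1], [0,0,2,0,0,0,0], [0,0,0,0,0,0,0]]⟩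
theorem h7_28 : smallOK 7 1012 a7_28 = true := by decide +kernel

/-- an explicit algebra for the class 7:29 -/
def a7_29 : Rep := ⟨5, [[2,4,0,0,0], [2,3,0,0,0], [0,0,1,1,1]], [[0,1,2,3,4], [0,1,2,2,4], [0,1,2,3,2], [0,1,2,3,3], [0,1,2,2,2], [0,0,2,2,2], [0,0,0,0,0]]⟩
theorem h7_29 : smallOK 7 1016 a7_29 = true := by decide +kernel

/-- an explicit algebra for the class 7:30 -/
def a7_30 : Rep := ⟨4, [[2,3,3,2], [2,2,1,1], [0,0,0,0]], [[0,1,2,3], [0,1,2,2], [0,1,1,3], [0,1,1,0], [0,0,2,2], [0,1,1,1], [0,0,0,0]]⟩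
theorem h7_30 : smallOK 7 204 a7_30 = true := by decide +kernel

/-- an explicit algebra for the class 7:31 -/
def a7_31 : Rep := ⟨5, [[4,4,3,4,3], [2,2,2,4,4], [0,2,2,0,2]], [[0,1,2,3,4], [0,1,2,3,2], [0,1,0,3,3], [0,0,0,3,3], [0,1,2,0,2], [0,1,0,0,0], [0,0,0,0,0]]⟩
theorem h7_31 : smallOK 7 716 a7_31 = true := by decide +kernel

/-- an explicit algebra for the class 7:32 -/
def a7_32 : Rep := ⟨7, [[5,6,3,5,0,3,1], [2,0,0,2,6,0,2], [1,2,1,5,0,5,2]], [[0,1,2,3,4,5,6], [0,1,0,3,4,3,6], [0,1,1,3,4,1,3], [0,1,1,0,4,1,0], [0,1,0,3,4,3,1], [0,0,0,0,4,0,0], [0,0,0,0,0,0,0]]⟩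
theorem h7_32 : smallOK 7 972 a7_32 = true := by decide +kernel

/-- an explicit algebra for the class 7:33 -/
def a7_33 : Rep := ⟨5, [[0,0,0,0,4], [1,4,3,2,1], [2,3,2,3,2]], [[0,1,2,3,4], [0,1,2,2,4], [0,1,2,3,0], [0,1,0,1,0], [0,1,2,2,0], [0,0,2,2,0], [0,0,0,0,0]]⟩
theorem h7_33 : smallOK 7 732 a7_33 = true := by decide +kernel

/-- an explicit algebra for the class 7:34 -/
def a7_34 : Rep := ⟨5, [[3,0,2,0,0], [4,0,3,0,0], [1,3,4,1,1]], [[0,1,2,3,4], [0,1,2,1,4], [0,1,2,3,3], [0,1,2,0,0], [0,1,2,1,1], [0,0,2,0,0], [0,0,0,0,0]]⟩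
theorem h7_34 : smallOK 7 988 a7_34 = true := by decide +kernel

/-- an explicit algebra for the class 7:35 -/
def a7_35 : Rep := ⟨6, [[0,0,2,1,2,1], [4,4,1,5,1,1], [0,1,0,4,1,0]], [[0,1,2,3,4,5], [0,1,0,3,1,5], [0,0,2,3,4,5], [0,0,2,3,2,5], [0,0,0,3,0,5], [0,0,0,3,0,0], [0,0,0,0,0,0]]⟩
theorem h7_35 : smallOK 7 1020 a7_35 = true := by decide +kernel

/-- an explicit algebra for the class 7:36 -/
def a7_36 : Rep := ⟨5, [[3,3,3,2,3], [0,0,4,4,4], [4,4,1,4,4]], [[0,1,2,3,4], [0,0,2,3,4], [0,1,2,3,0], [0,0,2,3,0], [0,0,0,3,0], [0,0,2,2,0], [0,0,0,0,0]]⟩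
theorem h7_36 : smallOK 7 510 a7_36 = true := by decide +kernel

/-- an explicit algebra for the class 7:37 -/
def a7_37 : Rep := ⟨6, [[0,0,1,5,0,0], [0,1,3,0,1,0], [0,0,1,0,0,4]], [[0,1,2,3,4,5], [0,0,2,3,4,5], [0,1,2,3,1,5], [0,0,2,3,0,5], [0,0,2,3,0,0], [0,0,2,0,0,0], [0,0,0,0,0,0]]⟩
theorem h7_37 : smallOK 7 1022 a7_37 = true := by decide +kernel

/-- an explicit algebra for the class 7:38 -/
def a7_38 : Rep := ⟨7, [[6,4,5,2,1,2,0], [2,3,0,1,6,1,4], [2,5,0,1,6,1,4]], [[0,1,2,3,4,5,6], [0,1,2,3,4,3,6], [0,1,2,1,2,1,0], [0,1,1,0,0,0,1], [0,1,0,3,1,3,3], [0,0,2,2,4,2,4], [0,0,0,0,0,0,0]]⟩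
theorem h7_38 : smallOK 7 75 a7_38 = true := by decide +kernel

/-- an explicit algebra for the class 7:40 -/
def a7_40 : Rep := ⟨5, [[2,2,4,1,2], [4,0,3,2,0], [4,1,1,4,1]], [[0,1,2,3,4], [0,1,2,3,1], [0,1,1,0,1], [0,0,2,3,0], [0,1,2,2,1], [0,0,2,2,0], [0,0,0,0,0]]⟩
theorem h7_40 : smallOK 7 843 a7_40 = true := by decide +kernel

/-- an explicit algebra for the class 7:42 -/
def a7_42 : Rep := ⟨7, [[1,1,2,0,2,3,4], [2,2,0,2,0,6,5], [5,5,5,0,0,0,0]], [[0,1,2,3,4,5,6], [0,0,2,3,4,5,6], [0,0,2,0,2,0,2], [0,0,0,3,4,5,6], [0,0,0,3,3,5,6], [0,0,0,3,3,5,5], [0,0,0,0,0,0,0]]⟩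
theorem h7_42 : smallOK 7 875 a7_42 = true := by decide +kernel

/-- an explicit algebra for the class 7:43 -/
def a7_43 : Rep := ⟨5, [[4,2,2,0,4], [0,1,4,2,2], [0,0,0,1,0]], [[0,1,2,3,4], [0,1,2,3,2], [0,0,2,3,2], [0,1,0,3,0], [0,1,1,3,1], [0,0,0,3,0], [0,0,0,0,0]]⟩
theorem h7_43 : smallOK 7 971 a7_43 = true := by decide +kernel

/-- an explicit algebra for the class 7:44 -/
def a7_44 : Rep := ⟨7, [[4,2,1,4,3,4,1], [6,2,6,6,2,1,1], [0,3,0,0,0,5,5]], [[0,1,2,3,4,5,6], [0,1,2,0,4,5,6], [0,1,0,0,1,5,6], [0,1,1,0,4,0,1], [0,1,1,0,0,0,1], [0,1,0,0,1,5,5], [0,0,0,0,0,0,0]]⟩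
theorem h7_44 : smallOK 7 235 a7_44 = true := by decide +kernel

/-- an explicit algebra for the class 7:45 -/
def a7_45 : Rep := ⟨5, [[1,0,4,3,0], [4,0,4,3,0], [4,0,4,3,0]], [[0,1,2,3,4], [0,1,2,3,1], [0,1,0,3,1], [0,0,2,3,0], [0,0,2,0,0], [0,0,0,3,0], [0,0,0,0,0]]⟩
theorem h7_45 : smallOK 7 491 a7_45 = true := by decide +kernel

/-- an explicit algebra for the class 7:46 -/
def a7_46 : Rep := ⟨6, [[4,1,2,1,4,2], [5,4,4,0,1,0], [5,4,4,2,2,0]], [[0,1,2,3,4,5], [0,1,1,3,4,5], [0,1,1,3,0,1], [0,1,1,3,1,5], [0,1,1,3,1,0], [0,0,0,3,0,0], [0,0,0,0,0,0]]⟩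
theorem h7_46 : smallOK 7 1003 a7_46 = true := by decide +kernel

/-- an explicit algebra for the class 7:47 -/
def a7_47 : Rep := ⟨6, [[4,5,1,4,5,4], [3,5,5,5,5,5], [5,0,2,2,0,5]], [[0,1,2,3,4,5], [0,1,2,3,1,5], [0,1,2,3,1,2], [0,1,2,2,1,5], [0,1,2,2,1,2], [0,1,0,0,1,0], [0,0,0,0,0,0]]⟩
theorem h7_47 : smallOK 7 1019 a7_47 = true := by decide +kernel

/-- an explicit algebra for the class 7:48 -/
def a7_48 : Rep := ⟨5, [[0,0,0,4,1], [4,4,1,4,4], [4,4,1,4,4]], [[0,1,2,3,4], [0,0,2,3,4], [0,0,2,3,0], [0,0,2,0,0], [0,0,0,3,0], [0,0,2,2,0], [0,0,0,0,0]]⟩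
theorem h7_48 : smallOK 7 223 a7_48 = true := by decide +kernel

/-- an explicit algebra for the class 7:49 -/
def a7_49 : Rep := ⟨6, [[0,3,4,0,4,2], [3,1,3,3,0,1], [4,5,2,4,2,5]], [[0,1,2,3,4,5], [0,1,2,0,4,5], [0,1,2,0,2,5], [0,0,2,0,2,2], [0,1,0,0,0,5], [0,1,0,0,0,1], [0,0,0,0,0,0]]⟩
theorem h7_49 : smallOK 7 735 a7_49 = true := by decide +kernel

/-- an explicit algebra for the class 7:50 -/
def a7_50 : Rep := ⟨6, [[3,0,0,0,1,0], [3,0,0,0,2,0], [0,3,2,5,3,2]], [[0,1,2,3,4,5], [0,1,2,3,4,2], [0,1,2,2,4,2], [0,1,0,0,4,0], [0,1,1,1,4,1], [0,0,0,0,4,0], [0,0,0,0,0,0]]⟩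
theorem h7_50 : smallOK 7 991 a7_50 = true := by decide +kernel

/-- an explicit algebra for the class 7:51 -/
def a7_51 : Rep := ⟨6, [[2,4,4,2,1,1], [1,4,5,1,2,2], [0,0,0,0,0,3]], [[0,1,2,3,4,5], [0,1,2,0,4,5], [0,1,2,0,4,4], [0,1,1,0,4,4], [0,1,1,0,1,1], [0,1,1,0,0,0], [0,0,0,0,0,0]]⟩
theorem h7_51 : smallOK 7 511 a7_51 = true := by decide +kernel

/-- an explicit algebra for the class 7:52 -/
def a7_52 : Rep := ⟨7, [[0,4,0,4,2,3,5], [6,1,6,6,6,6,1], [6,6,6,6,6,6,1]], [[0,1,2,3,4,5,6], [0,1,0,3,4,5,6], [0,1,0,3,0,5,6], [0,1,0,0,0,5,6], [0,1,0,0,0,0,6], [0,1,0,0,0,0,1], [0,0,0,0,0,0,0]]⟩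
theorem h7_52 : smallOK 7 1023 a7_52 = true := by decide +kernel

end Vale.Agent.Lib.P183.DataSmall
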