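import Vale.Agent.Lib.P183.Fast
import Vale.Agent.Lib.P183.Classify

namespace Vale.Agent.Lib.P183.R6_3

open Vale.Agent.Lib.P183.Fast

/-- the data of the unary algebra -/
def D : FData where
  n := 24
  w := 5
  msk := 31
  maps := [727548310346908890193318370647117825, 899228972693802420046595671804903522, 944494360608982600091689407077458150, 334660077616973311824719322808584, 327135326788016182521967681800, 343026579557085663763662846610907400, 311980856674743012827400]
  thetas := [984818244535754528103549039458486304, 943239265195463904513205123594389504, 463782769031899347320261756693088288, 378106067914196013855302733832224800, 1338640310467893247298877291234336, 0]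
  roots := [16777215, 5592405, 2623, 523, 3, 1]
  invF1 := [727548310346908890193318370647117825, 899228972693802420046595671804903522, 944494360608982600091689407077458150]
  invF2 := [727548310346908890193318370647117825, 899228972693802420046595671804903522, 944494360608982600091689407077458150]
  parT := 39933549691558121850307584
  distT := 255928677349841441764809742160561184
  parS := 300148257112722939042795142643948775
  distS := 42878322444674705577541063689633792
  rho := 172851930089164352068380885023591456
  ys := [1, 8, 2, 3, 5]
  rys := [4, 6, 7, 9, 10, 11, 12, 13, 14, 15, 16, 17, 18, 19, 20, 21, 22, 23]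

/-- the relation -/
def rel : Nat → Nat → Bool := relOf 6 20

/-- a closure certificate -/
def c0 : Cert := ⟨1, 13, 71924191361, 1⟩
/-- a closure certificate -/
def c1 : Cert := ⟨8, 17, 36825185976840, 2⟩
/-- a closure certificate -/
def c2 : Cert := ⟨2, 21, 430129524447969928, 3⟩
/-- a closure certificate -/
def c3 : Cert := ⟨3, 21, 146508283994211336, 3⟩
/-- a closure certificate -/
def c4 : Cert := ⟨5, 24, 101315265309754556944, 13⟩
/-- a reduction certificate -/
def r0 : RCert := ⟨4, 3, 2, 8, 1⟩
/-- a reduction certificate -/
def r1 : RCert := ⟨6, 2, 6, 49105, 2⟩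
/-- a reduction certificate -/
def r2 : RCert := ⟨7, 3, 7, 573384, 3⟩
/-- a reduction certificate -/
def r3 : RCert := ⟨9, 5, 24, 1715422764917835267720, 5⟩
/-- a reduction certificate -/
def r4 : RCert := ⟨10, 5, 7, 573386, 3⟩
/-- a reduction certificate -/
def r5 : RCert := ⟨11, 3, 7, 278481, 2⟩
/-- a reduction certificate -/
def r6 : RCert := ⟨12, 8, 1, 4, 1⟩
/-- a reduction certificate -/
def r7 : RCert := ⟨13, 5, 9, 36961800, 3⟩
/-- a reduction certificate -/
def r8 : RCert := ⟨14, 2, 3, 249, 1⟩
/-- a reduction certificate -/
def r9 : RCert := ⟨15, 3, 5, 16337, 1⟩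
/-- a reduction certificate -/
def r10 : RCert := ⟨16, 3, 3, 70, 2⟩
/-- a reduction certificate -/
def r11 : RCert := ⟨17, 5, 5, 28625, 1⟩
/-- a reduction certificate -/
def r12 : RCert := ⟨18, 5, 22, 26803472241052712456, 5⟩
/-- a reduction certificate -/
def r13 : RCert := ⟨19, 3, 15, 1093136097224, 3⟩
/-- a reduction certificate -/
def r14 : RCert := ⟨20, 3, 5, 20424, 1⟩
/-- a reduction certificate -/
def r15 : RCert := ⟨21, 5, 8, 282577, 2⟩
/-- a reduction certificate -/
def r16 : RCert := ⟨22, 5, 7, 1048072, 1⟩
/-- a reduction certificate -/
def r17 : RCert := ⟨23, 3, 19, 51861413412253648, 6⟩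

/-- the list of closure certificates -/
def certs : List Cert := [c0, c1, c2, c3, c4]

/-- the list of reduction certificates -/
def rcerts : List RCert := [r0, r1, r2, r3, r4, r5, r6, r7, r8, r9, r10, r11, r12, r13, r14, r15, r16, r17]

theorem hlabels : labelsOK D = true := by decide +kernel
theorem hident : idOK D = true := by decide +kernel
theorem hcompat0 : compatAt D 0 = true := by decide +kernel
theorem hcompat1 : compatAt D 1 = true := by decide +kernel
theorem hcompat2 : compatAt D 2 = true := by decide +kernel
theorem hcompat3 : compatAt D 3 = true := by decide +kernel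
theorem hcompat4 : compatAt D 4 = true := by decide +kernel
theorem hcompat5 : compatAt D 5 = true := by decide +kernel
theorem hcompat6 : compatAt D 6 = true := by decide +kernel
theorem hinvs : invOK D = true := by decide +kernel
theorem htreeT : treeT D = true := by decide +kernel
theorem htreeS : treeS D = true := by decide +kernel
theorem hrho : rhoOK D = true := by decide +kernel
theorem horder : orderOK D rel = true := by decide +kernel
theorem hjoins : joinsOK D rel [(2, 1, 5, 3), (3, 1, 5, 2), (4, 1, 5, 1), (4, 3, 5, 2)] = true := by decide +kernel
theorem hc0 : certOK D c0 = true := by decide +kernel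
theorem hc1 : certOK D c1 = true := by decide +kernel
theorem hc2 : certOK D c2 = true := by decide +kernel
theorem hc3 : certOK D c3 = true := by decide +kernel
theorem hc4 : certOK D c4 = true := by decide +kernel
theorem hr0 : rcertOK D r0 = true := by decide +kernel
theorem hr1 : rcertOK D r1 = true := by decide +kernel
theorem hr2 : rcertOK D r2 = true := by decide +kernel
theorem hr3 : rcertOK D r3 = true := by decide +kernel
theorem hr4 : rcertOK D r4 = true := by decide +kernel
theorem hr5 : rcertOK D r5 = true := by decide +kernel
theorem hr6 : rcertOK D r6 = true := by decide +kernel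
theorem hr7 : rcertOK D r7 = true := by decide +kernel
theorem hr8 : rcertOK D r8 = true := by decide +kernel
theorem hr9 : rcertOK D r9 = true := by decide +kernel
theorem hr10 : rcertOK D r10 = true := by decide +kernel
theorem hr11 : rcertOK D r11 = true := by decide +kernel
theorem hr12 : rcertOK D r12 = true := by decide +kernel
theorem hr13 : rcertOK D r13 = true := by decide +kernel
theorem hr14 : rcertOK D r14 = true := by decide +kernel
theorem hr15 : rcertOK D r15 = true := by decide +kernel
theorem hr16 : rcertOK D r16 = true := by decide +kernel
theorem hr17 : rcertOK D r17 = true := by decide +kernel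

theorem hcerts : ∀ c ∈ certs, certOK D c = true := by
  intro c hc
  simp only [certs, List.mem_cons, List.not_mem_nil, or_false] at hc
  rcases hc with rfl | rfl | rfl | rfl | rfl
  · exact hc0
  · exact hc1
  · exact hc2
  · exact hc3
  · exact hc4

theorem hrcerts : ∀ c ∈ rcerts, rcertOK D c = true := by
  intro c hc
  simp only [rcerts, List.mem_cons, List.not_mem_nil, or_false] at hc
  rcases hc with rfl | rfl | rfl | rfl | rfl | rfl | rfl | rfl | rfl | rfl | rfl | rfl | rfl | rfl | rfl | rfl | rfl | rfl
  · exact hr0
  · exact hr1
  · exact hr2
  · exact hr3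
  · exact hr4
  · exact hr5
  · exact hr6
  · exact hr7
  · exact hr8
  · exact hr9
  · exact hr10
  · exact hr11
  · exact hr12
  · exact hr13
  · exact hr14
  · exact hr15
  · exact hr16
  · exact hr17

theorem hcompat : ∀ i, i < D.maps.length → compatAt D i = true := by
  intro i hi
  have hi2 : i < 7 := hi
  match i, hi2 with
  | 0, _ => exact hcompat0
  | 1, _ => exact hcompat1
  | 2, _ => exact hcompat2
  | 3, _ => exact hcompat3
  | 4, _ => exact hcompat4
  | 5, _ => exact hcompat5
  | 6, _ => exact hcompat6

/-- the realization -/
theorem realizes : Realizes 6 rel :=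
  realizes_of_good (D := D) (certs := certs) (rcerts := rcerts)
    ⟨hlabels, hident, hcompat, hinvs, htreeT, htreeS, horder, ⟨_, hjoins⟩, hcerts, hrcerts, rfl, rfl, hrho⟩ rfl

end Vale.Agent.Lib.P183.R6_3
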