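import Vale.Agent.Lib.P183.Fast
import Vale.Agent.Lib.P183.Classify

namespace Vale.Agent.Lib.P183.R7_13

open Vale.Agent.Lib.P183.Fast

/-- the data of the unary algebra -/
def D : FData where
  n := 48
  w := 6
  msk := 63
  maps := [323529502750199114704360565389733957188172048665264019607702702029200817182177351712769, 355113288856908830173594589153107218474732622538684914597965247647607913551335046512834, 363240509118964382515532049505951670689693273732198471481636789804890944279714996715974, 243997375531669345457115509245039659974503817793424186239554090845708630546936671065175, 190189125643105466048756875639796869632400192202388966341082372415523269307184668779920, 181437149488881596835725244473821258872628010529607703504760952014438651590524948817496, 316478017882534648083077183110901286805375319288733248820811489562225452004944557121920, 316483210397851656017116931436760394330884239556026109860125990699563659024379348341120, 140225957522093994411372817517509346875313758171606805882007574073856325]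
  thetas := [370893620502133650990156577101181578910897003366124777934939121089380728434643182559296, 173786022774884879264103979117716322871082523134137992051991214914746514236095943417920, 243997315305308763044864975961390711906233198427274869932537922771091747614694450667584, 189581712663420982689634603879291578765396391095243807233943238520506605638880717971520, 125241650168928535203271251931258727127389763204752411146729812909948738243815284800, 189456471013252054154431332627360320038269001332039054822796508707596656900636902686720, 0]
  roots := [281474976710655, 16777215, 140777627847, 117440519, 7, 16777217, 1]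
  invF1 := [323529502750199114704360565389733957188172048665264019607702702029200817182177351712769, 355113288856908830173594589153107218474732622538684914597965247647607913551335046512834, 363240509118964382515532049505951670689693273732198471481636789804890944279714996715974, 243997375531669345457115509245039659974503817793424186239554090845708630546936671065175, 190189125643105466048756875639796869632400192202388966341082372415523269307184668779920, 181437149488881596835725244473821258872628010529607703504760952014438651590524948817496]
  invF2 := [323529502750199114704360565389733957188172048665264019607702702029200817182177351712769, 355113288856908830173594589153107218474732622538684914597965247647607913551335046512834, 363240509118964382515532049505951670689693273732198471481636789804890944279714996715974, 243997375531669345457115509245039659974503817793424186239554090845708630546936671065175, 190189125643105466048756875639796869632400192202388966341082372415523269307184668779920, 181437149488881596835725244473821258872628010529607703504760952014438651590524948817496]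
  parT := 39470098127760844615506527630700066674639376344894230095747559987152705055431856492544
  distT := 15911413420932058963190529318969040025373603908300912754860830530313125884625263530048
  parS := 47730294958551787867330548853397405279139054914586079956455569953945838780808085934665
  distS := 31450867421149594600307985209814817915851901649206869188508486942440496991187583643648
  rho := 31822766601029635259739762553160686156777235146444522257683135267433577017062590796096
  ys := [25, 5, 7, 24, 1, 26]
  rys := [2, 3, 4, 9, 10, 16, 17, 23, 27, 28, 29, 30, 32, 35, 40, 41, 46]

/-- the relation -/
def rel : Nat → Nat → Bool := relOf 7 436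

/-- a closure certificate -/
def c0 : Cert := ⟨25, 23, 1010401010201010201010, 1⟩
/-- a closure certificate -/
def c1 : Cert := ⟨5, 35, 10201010401010201531020101030101020, 3⟩
/-- a closure certificate -/
def c2 : Cert := ⟨7, 44, 51020101050101020899901010201010501010201010, 3⟩
/-- a closure certificate -/
def c3 : Cert := ⟨24, 46, 6010102089901010201010201010301010201010201010, 4⟩
/-- a closure certificate -/
def c4 : Cert := ⟨1, 57, 101051020899999999999910201010301010201510201010301010201, 12⟩
/-- a closure certificate -/
def c5 : Cert := ⟨26, 47, 10508901010401010201010201010301010201010201010, 10⟩
/-- a reduction certificate -/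
def r0 : RCert := ⟨2, 1, 7, 849910, 2⟩
/-- a reduction certificate -/
def r1 : RCert := ⟨3, 1, 4, 8390, 1⟩
/-- a reduction certificate -/
def r2 : RCert := ⟨4, 1, 6, 839190, 1⟩
/-- a reduction certificate -/
def r3 : RCert := ⟨9, 7, 6, 839920, 1⟩
/-- a reduction certificate -/
def r4 : RCert := ⟨10, 1, 9, 690819910, 2⟩
/-- a reduction certificate -/
def r5 : RCert := ⟨16, 5, 1, 8, 1⟩
/-- a reduction certificate -/
def r6 : RCert := ⟨17, 1, 10, 6948929960, 1⟩
/-- a reduction certificate -/
def r7 : RCert := ⟨23, 7, 6, 694894, 1⟩
/-- a reduction certificate -/
def r8 : RCert := ⟨27, 26, 8, 84999010, 1⟩
/-- a reduction certificate -/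
def r9 : RCert := ⟨28, 26, 6, 839951, 1⟩
/-- a reduction certificate -/
def r10 : RCert := ⟨29, 24, 5, 59983, 2⟩
/-- a reduction certificate -/
def r11 : RCert := ⟨30, 26, 27, 299593999599529971996089701, 6⟩
/-- a reduction certificate -/
def r12 : RCert := ⟨32, 26, 32, 83995299695949912199975995499010, 6⟩
/-- a reduction certificate -/
def r13 : RCert := ⟨35, 45, 8, 81999010, 1⟩
/-- a reduction certificate -/
def r14 : RCert := ⟨40, 24, 6, 694895, 1⟩
/-- a reduction certificate -/
def r15 : RCert := ⟨41, 26, 28, 6959499219959308959499594921, 9⟩
/-- a reduction certificate -/
def r16 : RCert := ⟨46, 26, 34, 6959499319959308993993019959399310, 9⟩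

/-- the list of closure certificates -/
def certs : List Cert := [c0, c1, c2, c3, c4, c5]

/-- the list of reduction certificates -/
def rcerts : List RCert := [r0, r1, r2, r3, r4, r5, r6, r7, r8, r9, r10, r11, r12, r13, r14, r15, r16]

theorem hlabels : labelsOK D = true := by decide +kernel
theorem hident : idOK D = true := by decide +kernel
theorem hcompat0 : compatAt D 0 = true := by decide +kernel
theorem hcompat1 : compatAt D 1 = true := by decide +kernel
theorem hcompat2 : compatAt D 2 = true := by decide +kernel
theorem hcompat3 : compatAt D 3 = true := by decide +kernel
theorem hcompat4 : compatAt D 4 = true := by decide +kernel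
theorem hcompat5 : compatAt D 5 = true := by decide +kernel
theorem hcompat6 : compatAt D 6 = true := by decide +kernel
theorem hcompat7 : compatAt D 7 = true := by decide +kernel
theorem hcompat8 : compatAt D 8 = true := by decide +kernel
theorem hinvs : invOK D = true := by decide +kernel
theorem htreeT : treeT D = true := by decide +kernel
theorem htreeS : treeS D = true := by decide +kernel
theorem hrho : rhoOK D = true := by decide +kernel
theorem horder : orderOK D rel = true := by decide +kernel
theorem hjoins : joinsOK D rel [(2, 1, 6, 4), (3, 1, 6, 4), (4, 1, 6, 2), (5, 1, 6, 2), (5, 4, 6, 2)] = true := by decide +kernel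
theorem hc0 : certOK D c0 = true := by decide +kernel
theorem hc1 : certOK D c1 = true := by decide +kernel
theorem hc2 : certOK D c2 = true := by decide +kernel
theorem hc3 : certOK D c3 = true := by decide +kernel
theorem hc4 : certOK D c4 = true := by decide +kernel
theorem hc5 : certOK D c5 = true := by decide +kernel
theorem hr0 : rcertOK D r0 = true := by decide +kernel
theorem hr1 : rcertOK D r1 = true := by decide +kernel
theorem hr2 : rcertOK D r2 = true := by decide +kernel
theorem hr3 : rcertOK D r3 = true := by decide +kernel
theorem hr4 : rcertOK D r4 = true := by decide +kernel
theorem hr5 : rcertOK D r5 = true := by decide +kernel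
theorem hr6 : rcertOK D r6 = true := by decide +kernel
theorem hr7 : rcertOK D r7 = true := by decide +kernel
theorem hr8 : rcertOK D r8 = true := by decide +kernel
theorem hr9 : rcertOK D r9 = true := by decide +kernel
theorem hr10 : rcertOK D r10 = true := by decide +kernel
theorem hr11 : rcertOK D r11 = true := by decide +kernel
theorem hr12 : rcertOK D r12 = true := by decide +kernel
theorem hr13 : rcertOK D r13 = true := by decide +kernel
theorem hr14 : rcertOK D r14 = true := by decide +kernel
theorem hr15 : rcertOK D r15 = true := by decide +kernel
theorem hr16 : rcertOK D r16 = true := by decide +kernel

theorem hcerts : ∀ c ∈ certs, certOK D c = true := by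
  intro c hc
  simp only [certs, List.mem_cons, List.not_mem_nil, or_false] at hc
  rcases hc with rfl | rfl | rfl | rfl | rfl | rfl
  · exact hc0
  · exact hc1
  · exact hc2
  · exact hc3
  · exact hc4
  · exact hc5

theorem hrcerts : ∀ c ∈ rcerts, rcertOK D c = true := by
  intro c hc
  simp only [rcerts, List.mem_cons, List.not_mem_nil, or_false] at hc
  rcases hc with rfl | rfl | rfl | rfl | rfl | rfl | rfl | rfl | rfl | rfl | rfl | rfl | rfl | rfl | rfl | rfl | rfl
  · exact hr0
  · exact hr1
  · exact hr2
  · exact hr3
  · exact hr4
  · exact hr5
  · exact hr6
  · exact hr7
  · exact hr8
  · exact hr9
  · exact hr10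
  · exact hr11
  · exact hr12
  · exact hr13
  · exact hr14
  · exact hr15
  · exact hr16

theorem hcompat : ∀ i, i < D.maps.length → compatAt D i = true := by
  intro i hi
  have hi2 : i < 9 := hi
  match i, hi2 with
  | 0, _ => exact hcompat0
  | 1, _ => exact hcompat1
  | 2, _ => exact hcompat2
  | 3, _ => exact hcompat3
  | 4, _ => exact hcompat4
  | 5, _ => exact hcompat5
  | 6, _ => exact hcompat6
  | 7, _ => exact hcompat7
  | 8, _ => exact hcompat8

/-- the realization -/
theorem realizes : Realizes 7 rel :=
  realizes_of_good (D := D) (certs := certs) (rcerts := rcerts)
    ⟨hlabels, hident, hcompat, hinvs, htreeT, htreeS, horder, ⟨_, hjoins⟩, hcerts, hrcerts, rfl, rfl, hrho⟩ rfl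

end Vale.Agent.Lib.P183.R7_13
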