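import Vale.Agent.Lib.P183.Fast
import Vale.Agent.Lib.P183.Classify

namespace Vale.Agent.Lib.P183.R7_24

open Vale.Agent.Lib.P183.Fast

/-- the data of the unary algebra -/
def D : FData where
  n := 24
  w := 5
  msk := 31
  maps := [727548310346908890193318370647117825, 899228972693802420046595671804903522, 944494360608982600091689407077458150, 40566097041931568161264451453953, 1298075453783853792734831111569441, 1339947537709277730008206619477025, 42837716773408288804808606482465825, 85672979949734271847456846154563650, 85756563185228899272946266144835650]
  thetas := [984818244535754528103549039458486304, 292598449479445729773451047533119520, 943239265195463904513205123594389504, 771809803764543402246410206502191104, 685801674071382333747765859546368000, 83828347856163071903600964864000, 0]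
  roots := [16777215, 43775, 5592405, 266305, 66837, 21, 1]
  invF1 := [727548310346908890193318370647117825, 899228972693802420046595671804903522, 944494360608982600091689407077458150]
  invF2 := [727548310346908890193318370647117825, 899228972693802420046595671804903522, 944494360608982600091689407077458150]
  parT := 39933549691558121850307584
  distT := 255928677349841441764809742160561184
  parS := 385904902002072350197879469113648425
  distS := 42878322404780153530258299884175360
  rho := 214433485540405650204135034258033728
  ys := [16, 1, 2, 6, 17, 8]
  rys := [3, 4, 5, 7, 9, 10, 11, 12, 13, 14, 15, 18, 19, 20, 21, 22, 23]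

/-- the relation -/
def rel : Nat → Nat → Bool := relOf 7 724

/-- a closure certificate -/
def c0 : Cert := ⟨16, 13, 101029901010, 1⟩
/-- a closure certificate -/
def c1 : Cert := ⟨1, 13, 1029901010201, 1⟩
/-- a closure certificate -/
def c2 : Cert := ⟨2, 19, 101021301010201210, 5⟩
/-- a closure certificate -/
def c3 : Cert := ⟨6, 18, 190201301210201010, 1⟩
/-- a closure certificate -/
def c4 : Cert := ⟨17, 20, 1401010201010201010, 2⟩
/-- a closure certificate -/
def c5 : Cert := ⟨8, 24, 29901010201301010201010, 6⟩
/-- a reduction certificate -/
def r0 : RCert := ⟨3, 2, 3, 391, 1⟩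
/-- a reduction certificate -/
def r1 : RCert := ⟨4, 2, 3, 590, 1⟩
/-- a reduction certificate -/
def r2 : RCert := ⟨5, 2, 1, 8, 1⟩
/-- a reduction certificate -/
def r3 : RCert := ⟨7, 6, 3, 390, 1⟩
/-- a reduction certificate -/
def r4 : RCert := ⟨9, 8, 8, 28991692, 2⟩
/-- a reduction certificate -/
def r5 : RCert := ⟨10, 8, 3, 490, 1⟩
/-- a reduction certificate -/
def r6 : RCert := ⟨11, 8, 12, 279929139920, 2⟩
/-- a reduction certificate -/
def r7 : RCert := ⟨12, 8, 2, 21, 1⟩
/-- a reduction certificate -/
def r8 : RCert := ⟨13, 8, 5, 49921, 1⟩
/-- a reduction certificate -/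
def r9 : RCert := ⟨14, 8, 3, 891, 1⟩
/-- a reduction certificate -/
def r10 : RCert := ⟨15, 8, 9, 899139921, 1⟩
/-- a reduction certificate -/
def r11 : RCert := ⟨18, 8, 10, 2899169910, 2⟩
/-- a reduction certificate -/
def r12 : RCert := ⟨19, 8, 12, 289929139910, 2⟩
/-- a reduction certificate -/
def r13 : RCert := ⟨20, 8, 9, 799139910, 1⟩
/-- a reduction certificate -/
def r14 : RCert := ⟨21, 8, 11, 79992149910, 2⟩
/-- a reduction certificate -/
def r15 : RCert := ⟨22, 17, 14, 23999912019920, 3⟩
/-- a reduction certificate -/
def r16 : RCert := ⟨23, 17, 3, 390, 1⟩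

/-- the list of closure certificates -/
def certs : List Cert := [c0, c1, c2, c3, c4, c5]

/-- the list of reduction certificates -/
def rcerts : List RCert := [r0, r1, r2, r3, r4, r5, r6, r7, r8, r9, r10, r11, r12, r13, r14, r15, r16]

theorem hlabels : labelsOK D = true := by decide +kernel
theorem hident : idOK D = true := by decide +kernel
theorem hcompat0 : compatAt D 0 = true := by decide +kernel
theorem hcompat1 : compatAt D 1 = true := by decide +kernel
theorem hcompat2 : compatAt D 2 = true := by decide +kernel
theorem hcompat3 : compatAt D 3 = true := by decide +kernel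
theorem hcompat4 : compatAt D 4 = true := by decide +kernel
theorem hcompat5 : compatAt D 5 = true := by decide +kernel
theorem hcompat6 : compatAt D 6 = true := by decide +kernel
theorem hcompat7 : compatAt D 7 = true := by decide +kernel
theorem hcompat8 : compatAt D 8 = true := by decide +kernel
theorem hinvs : invOK D = true := by decide +kernel
theorem htreeT : treeT D = true := by decide +kernel
theorem htreeS : treeS D = true := by decide +kernel
theorem hrho : rhoOK D = true := by decide +kernel
theorem horder : orderOK D rel = true := by decide +kernel
theorem hjoins : joinsOK D rel [(2, 1, 5, 3), (3, 1, 6, 3), (4, 1, 5, 2), (4, 3, 6, 2), (5, 3, 6, 1)] = true := by decide +kernel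
theorem hc0 : certOK D c0 = true := by decide +kernel
theorem hc1 : certOK D c1 = true := by decide +kernel
theorem hc2 : certOK D c2 = true := by decide +kernel
theorem hc3 : certOK D c3 = true := by decide +kernel
theorem hc4 : certOK D c4 = true := by decide +kernel
theorem hc5 : certOK D c5 = true := by decide +kernel
theorem hr0 : rcertOK D r0 = true := by decide +kernel
theorem hr1 : rcertOK D r1 = true := by decide +kernel
theorem hr2 : rcertOK D r2 = true := by decide +kernel
theorem hr3 : rcertOK D r3 = true := by decide +kernel
theorem hr4 : rcertOK D r4 = true := by decide +kernel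
theorem hr5 : rcertOK D r5 = true := by decide +kernel
theorem hr6 : rcertOK D r6 = true := by decide +kernel
theorem hr7 : rcertOK D r7 = true := by decide +kernel
theorem hr8 : rcertOK D r8 = true := by decide +kernel
theorem hr9 : rcertOK D r9 = true := by decide +kernel
theorem hr10 : rcertOK D r10 = true := by decide +kernel
theorem hr11 : rcertOK D r11 = true := by decide +kernel
theorem hr12 : rcertOK D r12 = true := by decide +kernel
theorem hr13 : rcertOK D r13 = true := by decide +kernel
theorem hr14 : rcertOK D r14 = true := by decide +kernel
theorem hr15 : rcertOK D r15 = true := by decide +kernel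
theorem hr16 : rcertOK D r16 = true := by decide +kernel

theorem hcerts : ∀ c ∈ certs, certOK D c = true := by
  intro c hc
  simp only [certs, List.mem_cons, List.not_mem_nil, or_false] at hc
  rcases hc with rfl | rfl | rfl | rfl | rfl | rfl
  · exact hc0
  · exact hc1
  · exact hc2
  · exact hc3
  · exact hc4
  · exact hc5

theorem hrcerts : ∀ c ∈ rcerts, rcertOK D c = true := by
  intro c hc
  simp only [rcerts, List.mem_cons, List.not_mem_nil, or_false] at hc
  rcases hc with rfl | rfl | rfl | rfl | rfl | rfl | rfl | rfl | rfl | rfl | rfl | rfl | rfl | rfl | rfl | rfl | rfl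
  · exact hr0
  · exact hr1
  · exact hr2
  · exact hr3
  · exact hr4
  · exact hr5
  · exact hr6
  · exact hr7
  · exact hr8
  · exact hr9
  · exact hr10
  · exact hr11
  · exact hr12
  · exact hr13
  · exact hr14
  · exact hr15
  · exact hr16

theorem hcompat : ∀ i, i < D.maps.length → compatAt D i = true := by
  intro i hi
  have hi2 : i < 9 := hi
  match i, hi2 with
  | 0, _ => exact hcompat0
  | 1, _ => exact hcompat1
  | 2, _ => exact hcompat2
  | 3, _ => exact hcompat3
  | 4, _ => exact hcompat4
  | 5, _ => exact hcompat5
  | 6, _ => exact hcompat6
  | 7, _ => exact hcompat7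
  | 8, _ => exact hcompat8

/-- the realization -/
theorem realizes : Realizes 7 rel :=
  realizes_of_good (D := D) (certs := certs) (rcerts := rcerts)
    ⟨hlabels, hident, hcompat, hinvs, htreeT, htreeS, horder, ⟨_, hjoins⟩, hcerts, hrcerts, rfl, rfl, hrho⟩ rfl

end Vale.Agent.Lib.P183.R7_24
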